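import Vale.Agent.N047C.Main

open MvPolynomial Filter Vale.Agent.N047C
open scoped Topology

/-- Functions on the cube are written as multilinear polynomials.  (0) The dictionary.
(1) The growth exponent `a` of `M(d)` is the inverse of the exponent of the least degree telling
bias `t` from bias `-t`.  (2), (3) Square-root bounds for nonnegative combinations of, and
partitions into, affine subspaces and subcubes. -/
theorem Vale.Agent.Results.P047.A0Coin.result :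
    ((∀ (n : ℕ) (f : (Fin n → ZMod 2) → ℝ),
      ∃! P : MvPolynomial (Fin n) ℝ, Multilin P ∧ ∀ x, eval (pt x) P = f x) ∧
    ∀ (n : ℕ) (P : MvPolynomial (Fin n) ℝ), Multilin P →
      (∀ S : Finset (Fin n), coeff (∑ i ∈ S, Finsupp.single i 1) P =
        (∑ x, eval (pt x) P * ∏ i ∈ S, pt x i) / 2 ^ n) ∧
      P.totalDegree = (Finset.univ.filter fun S : Finset (Fin n) =>
        coeff (∑ i ∈ S, Finsupp.single i 1) P ≠ 0).sup Finset.card ∧
      ∀ t : ℝ, eval (fun _ => t) P = ∑ x, (∏ i, (1 + t * pt x i) / 2) * eval (pt x) P) ∧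
    (∀ M : ℕ → ℝ,
      (∀ d, 1 ≤ d → IsLUB {s | ∃ n, 1 ≤ n ∧ ∃ P : MvPolynomial (Fin n) ℝ,
        Boolean P ∧ P.totalDegree ≤ d ∧ ∑ i, lin P i = s} (M d)) →
      (∀ (n d : ℕ) (P : MvPolynomial (Fin n) ℝ) (t : ℝ), 1 ≤ d → Boolean P →
        P.totalDegree ≤ d → 0 < t → t < 1 →
        eval (fun _ => t) P - eval (fun _ => -t) P ≤ 2 * t * M d / (1 - t)) ∧
      ∀ η : ℝ, 0 < η → η < 1 → ∃ D : ℝ → ℕ,
        (∀ t, 0 < t → t ≤ 1 → IsLeast {d | ∃ (n : ℕ) (P : MvPolynomial (Fin n) ℝ), Boolean P ∧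
          P.totalDegree ≤ d ∧ η ≤ eval (fun _ => t) P ∧ eval (fun _ => -t) P ≤ -η} (D t)) ∧
        ∀ a : ℝ, Tendsto (fun d : ℕ => Real.log (M d) / Real.log d) atTop (𝓝 a) →
          Tendsto (fun t => Real.log (D t) / Real.log (1 / t)) (𝓝[>] 0) (𝓝 (1 / a))) ∧
    (∀ (n m : ℕ) (P : MvPolynomial (Fin n) ℝ) (c : Fin m → ℝ)
      (A : Fin m → AffineSubspace (ZMod 2) (Fin n → ZMod 2)), Conic P c A →
      ∑ i, |lin P i| ≤
        3 * √(Real.negMulLog (coeff 0 P) * ∑ a, c a * dens (A a) * codim (A a)) ∧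
      ∀ (k : ℕ) (t : ℝ), (∀ a, codim (A a) ≤ k) → 0 < t → t < 1 →
        eval (fun _ => t) P - eval (fun _ => -t) P ≤ 3 * t * √k / (1 - t)) ∧
    ∀ (n m : ℕ) (P : MvPolynomial (Fin n) ℝ) (v : Fin m → ℝ), Multilin P → (∀ a, |v a| ≤ 1) →
      (∀ A : Fin m → AffineSubspace (ZMod 2) (Fin n → ZMod 2), (∀ x, ∃! a, x ∈ A a) →
        (∀ a, ∀ x ∈ A a, eval (pt x) P = v a) →
        ∑ i, |lin P i| ≤ √(2 * ∑ a, dens (A a) * codim (A a))) ∧
      ∀ (S : Fin m → Finset (Fin n)) (z : Fin m → Fin n → ZMod 2),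
        (∀ x : Fin n → ZMod 2, ∃! a, ∀ i ∈ S a, x i = z a i) →
        (∀ a (x : Fin n → ZMod 2), (∀ i ∈ S a, x i = z a i) → eval (pt x) P = v a) →
        ∑ i, |lin P i| ≤ √(∑ a, ((S a).card : ℝ) / 2 ^ (S a).card) := by
  refine ⟨⟨fun _ => existsUnique_pol, fun _ _ h => ⟨h.coeff_eq, h.totalDegree_eq, h.eval_const⟩⟩,
    fun M hM => ?_,
    fun _ _ _ _ _ h => ⟨h.bound, fun _ _ hk => h.diff hk⟩,
    fun _ _ _ _ h hv => ⟨fun _ => affine_part h hv, fun _ _ => cube_part h hv⟩⟩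
  have e : ∀ d, 1 ≤ d → M d = Vale.Agent.P047.maxLinearSum d := fun d hd =>
    (hM d hd).unique (sums_eq d ▸ Vale.Agent.P047.H594.isLUB_maxLinearSum hd)
  refine ⟨fun _ d _ _ hd => e d hd ▸ coin_pol hd, fun η h0 h1 => ⟨fun t => sInf (degs η t),
    fun t t0 t1 => degs_eq η t ▸ isLeast_degs h1 t0 t1, fun a ha => ?_⟩⟩
  obtain rfl : Vale.Agent.P047.H594.alpha = a := by
    refine tendsto_nhds_unique (Vale.Agent.P047.H594.tendsto_exponent.congr' ?_) ha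
    filter_upwards [eventually_ge_atTop 1] with d hd
    rw [e d hd]
  exact tendsto_degs h0 h1
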