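import Vale.Agent.N047.Bias

open Vale.Agent.P047

/-- The upper bound `M(d) ≤ d` is improved to `M(d) ≤ 24 d / 25` for all `d ≥ 2`, with absolute
values. -/
theorem Vale.Agent.Results.P047.A0UpperBound.result (d : ℕ) (hd : 2 ≤ d) (n : ℕ)
    (f : Cube n → ℝ) (hf : IsBoolean f) (h : degree f ≤ d) :
    ∑ i : Fin n, |fourierCoeff f {i}| ≤ 24 / 25 * (d : ℝ) :=
  Vale.Agent.N047.abs_sum_le hf hd h
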